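import Mathlib

open scoped RealInnerProductSpace

namespace Vale.Agent.Lib.P262

variable {E : Type*} [NormedAddCommGroup E] [InnerProductSpace ℝ E]

/-- `Forced τ p l`: starting from the partial sum `p`, every choice of signs for the vectors
of `l` produces a prefix sum of squared norm at least `τ`. -/
def Forced (τ : ℝ) : E → List E → Prop
  | p, [] => τ ≤ ‖p‖ ^ 2
  | p, u :: l => τ ≤ ‖p‖ ^ 2 ∨ (Forced τ (p + u) l ∧ Forced τ (p - u) l)

/-- `AllEnds P p l`: every signed sum `p ± l_1 ± ... ± l_n` satisfies `P`. -/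
def AllEnds (P : E → Prop) : E → List E → Prop
  | p, [] => P p
  | p, u :: l => AllEnds P (p + u) l ∧ AllEnds P (p - u) l

lemma forced_of_le {τ : ℝ} {p : E} (l : List E) (h : τ ≤ ‖p‖ ^ 2) : Forced τ p l := by
  cases l with
  | nil => exact h
  | cons u l => exact Or.inl h

lemma forced_neg {τ : ℝ} : ∀ (l : List E) (p : E), Forced τ (-p) l ↔ Forced τ p l
  | [], p => by simp [Forced]
  | u :: l, p => by
    simp only [Forced, norm_neg]
    have h1 : -p + u = -(p - u) := by abel
    have h2 : -p - u = -(p + u) := by abel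
    rw [h1, h2, forced_neg l, forced_neg l]
    tauto

lemma allEnds_mono {P Q : E → Prop} (h : ∀ q, P q → Q q) :
    ∀ (l : List E) (p : E), AllEnds P p l → AllEnds Q p l
  | [], p => fun hp => h p hp
  | u :: l, p => fun hp => ⟨allEnds_mono h l _ hp.1, allEnds_mono h l _ hp.2⟩

lemma allEnds_snoc {P : E → Prop} (u : E) :
    ∀ (l : List E) (p : E), AllEnds (fun q => P (q + u) ∧ P (q - u)) p l →
      AllEnds P p (l ++ [u])
  | [], p => fun hp => hp
  | w :: l, p => fun hp => ⟨allEnds_snoc u l _ hp.1, allEnds_snoc u l _ hp.2⟩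

lemma forced_append {τ : ℝ} (l2 : List E) :
    ∀ (l1 : List E) (p : E), AllEnds (fun q => Forced τ q l2) p l1 → Forced τ p (l1 ++ l2)
  | [], p => fun hp => hp
  | u :: l1, p => fun hp => Or.inr ⟨forced_append l2 l1 _ hp.1, forced_append l2 l1 _ hp.2⟩

/-- From the game-tree predicate to the explicit statement about sign sequences. -/
lemma forced_signs {τ : ℝ} :
    ∀ (l : List E) (p : E), Forced τ p l → ∀ ε : ℕ → ℝ, (∀ i, ε i = 1 ∨ ε i = -1) →
      ∃ k, k ≤ l.length ∧ τ ≤ ‖p + ∑ i ∈ Finset.range k, ε i • l.getD i 0‖ ^ 2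
  | [], p => fun h ε _ => ⟨0, le_refl _, by simpa [Forced] using h⟩
  | u :: l, p => fun h ε hε => by
    rcases h with h | ⟨hp, hm⟩
    · exact ⟨0, Nat.zero_le _, by simpa using h⟩
    · rcases hε 0 with h0 | h0
      · obtain ⟨k, hk, hk'⟩ := forced_signs l (p + u) hp (fun i => ε (i + 1)) (fun i => hε (i + 1))
        refine ⟨k + 1, by simpa using hk, ?_⟩
        rw [Finset.sum_range_succ']
        simp only [List.getD_cons_succ, List.getD_cons_zero, h0, one_smul]
        have : p + (∑ i ∈ Finset.range k, ε (i + 1) • l.getD i 0 + u)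
            = p + u + ∑ i ∈ Finset.range k, ε (i + 1) • l.getD i 0 := by abel
        rw [this]; exact hk'
      · obtain ⟨k, hk, hk'⟩ := forced_signs l (p - u) hm (fun i => ε (i + 1)) (fun i => hε (i + 1))
        refine ⟨k + 1, by simpa using hk, ?_⟩
        rw [Finset.sum_range_succ']
        simp only [List.getD_cons_succ, List.getD_cons_zero, h0, neg_smul, one_smul]
        have : p + (∑ i ∈ Finset.range k, ε (i + 1) • l.getD i 0 + -u)
            = p - u + ∑ i ∈ Finset.range k, ε (i + 1) • l.getD i 0 := by abel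
        rw [this]; exact hk'

end Vale.Agent.Lib.P262
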