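import Mathlib
import Vale.Agent.Lib.P262.Forced

open scoped RealInnerProductSpace

namespace Vale.Agent.Lib.P262

variable {E : Type*} [NormedAddCommGroup E] [InnerProductSpace ℝ E]

/-- A unit vector of the plane with prescribed inner product with a given vector. -/
lemma exists_unit (x y t : ℝ) (hb : 1 ≤ x ^ 2 + y ^ 2) (ht : t ^ 2 ≤ 1) :
    ∃ c s : ℝ, c ^ 2 + s ^ 2 = 1 ∧ c * x + s * y = t := by
  set b := x ^ 2 + y ^ 2 with hbdef
  have hbpos : 0 < b := by linarith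
  have hw : 0 ≤ b - t ^ 2 := by linarith
  set w := Real.sqrt (b - t ^ 2) with hwdef
  have hw2 : w ^ 2 = b - t ^ 2 := Real.sq_sqrt hw
  refine ⟨(t * x - w * y) / b, (t * y + w * x) / b, ?_, ?_⟩
  · have : ((t * x - w * y) / b) ^ 2 + ((t * y + w * x) / b) ^ 2
        = (t ^ 2 + w ^ 2) * (x ^ 2 + y ^ 2) / b ^ 2 := by
      field_simp; ring
    rw [this, hw2, ← hbdef]
    field_simp
    ring
  · have : (t * x - w * y) / b * x + (t * y + w * x) / b * y = t * (x ^ 2 + y ^ 2) / b := by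
      field_simp; ring
    rw [this, ← hbdef]
    field_simp

lemma norm_sq_add' (p u : E) : ‖p + u‖ ^ 2 = ‖p‖ ^ 2 + 2 * ⟪p, u⟫ + ‖u‖ ^ 2 := by
  rw [norm_add_sq_real]

lemma norm_sq_sub' (p u : E) : ‖p - u‖ ^ 2 = ‖p‖ ^ 2 - 2 * ⟪p, u⟫ + ‖u‖ ^ 2 := by
  rw [norm_sub_sq_real]

/-- The planar chain: given orthonormal `f1, f2`, for planar coordinates `(x, y)` with
`x^2 + y^2 >= 1` and a gap `g <= 1 - 2^(-n)` there is a list of unit vectors forcing
squared norm `‖p‖^2 + 1 + g` from every starting point `p` with those planar coordinates. -/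
lemma chain (f1 f2 : E) (h1 : ‖f1‖ = 1) (h2 : ‖f2‖ = 1) (h12 : ⟪f1, f2⟫ = 0) :
    ∀ n : ℕ, ∀ x y g : ℝ, 1 ≤ x ^ 2 + y ^ 2 → g ≤ 1 - (1 / 2 : ℝ) ^ n →
      ∃ l : List E, (∀ u ∈ l, ‖u‖ ≤ 1) ∧
        ∀ (p : E) (τ : ℝ), ⟪f1, p⟫ = x → ⟪f2, p⟫ = y → τ ≤ ‖p‖ ^ 2 + 1 + g → Forced τ p l := by
  have h21 : ⟪f2, f1⟫ = 0 := by rw [real_inner_comm]; exact h12
  have h11 : ⟪f1, f1⟫ = 1 := by rw [real_inner_self_eq_norm_sq, h1]; norm_num
  have h22 : ⟪f2, f2⟫ = 1 := by rw [real_inner_self_eq_norm_sq, h2]; norm_num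
  -- norm and inner products of a planar vector
  have hnorm : ∀ c s : ℝ, ‖c • f1 + s • f2‖ ^ 2 = c ^ 2 + s ^ 2 := by
    intro c s
    rw [norm_sq_add', norm_smul, norm_smul, h1, h2, inner_smul_left, inner_smul_right, h12]
    simp [sq_abs]
  have hin : ∀ (p : E) (c s : ℝ), ⟪p, c • f1 + s • f2⟫ = c * ⟪f1, p⟫ + s * ⟪f2, p⟫ := by
    intro p c s
    rw [inner_add_right, inner_smul_right, inner_smul_right, real_inner_comm f1 p,
      real_inner_comm f2 p]
  -- the base construction, valid whenever g <= 0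
  have base : ∀ x y g : ℝ, 1 ≤ x ^ 2 + y ^ 2 → g ≤ 0 →
      ∃ l : List E, (∀ u ∈ l, ‖u‖ ≤ 1) ∧
        ∀ (p : E) (τ : ℝ), ⟪f1, p⟫ = x → ⟪f2, p⟫ = y → τ ≤ ‖p‖ ^ 2 + 1 + g → Forced τ p l := by
    intro x y g hb hg
    obtain ⟨c, s, hcs, hxy⟩ := exists_unit x y 0 hb (by norm_num)
    refine ⟨[c • f1 + s • f2], ?_, ?_⟩
    · intro u hu
      rw [List.mem_singleton] at hu
      have := hnorm c s
      rw [hu]
      have h3 : ‖c • f1 + s • f2‖ ^ 2 = 1 := by rw [this, hcs]
      have h4 : 0 ≤ ‖c • f1 + s • f2‖ := norm_nonneg _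
      nlinarith
    · intro p τ hx hy hτ
      have hpu : ⟪p, c • f1 + s • f2⟫ = 0 := by rw [hin, hx, hy, hxy]
      right
      constructor
      · show τ ≤ ‖p + (c • f1 + s • f2)‖ ^ 2
        rw [norm_sq_add', hpu, hnorm, hcs]; linarith
      · show τ ≤ ‖p - (c • f1 + s • f2)‖ ^ 2
        rw [norm_sq_sub', hpu, hnorm, hcs]; linarith
  intro n
  induction n with
  | zero =>
    intro x y g hb hg
    exact base x y g hb (by simpa using hg)
  | succ n ih =>
    intro x y g hb hg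
    by_cases hg0 : g ≤ 0
    · exact base x y g hb hg0
    · have hg0 := not_le.mp hg0
      have hpow : 0 < (1 / 2 : ℝ) ^ (n + 1) := by positivity
      have hg1 : g < 1 := by linarith
      obtain ⟨c, s, hcs, hxy⟩ := exists_unit x y (g / 2) hb (by nlinarith)
      have hb' : 1 ≤ (x - c) ^ 2 + (y - s) ^ 2 := by nlinarith
      have hg' : 2 * g - 1 ≤ 1 - (1 / 2 : ℝ) ^ n := by
        have : (1 / 2 : ℝ) ^ (n + 1) = (1 / 2) ^ n / 2 := by rw [pow_succ]; ring
        linarith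
      obtain ⟨l', hl', hF⟩ := ih (x - c) (y - s) (2 * g - 1) hb' hg'
      refine ⟨(c • f1 + s • f2) :: l', ?_, ?_⟩
      · intro u hu
        rw [List.mem_cons] at hu
        rcases hu with hu | hu
        · have h3 : ‖c • f1 + s • f2‖ ^ 2 = 1 := by rw [hnorm, hcs]
          have h4 : 0 ≤ ‖c • f1 + s • f2‖ := norm_nonneg _
          rw [hu]; nlinarith
        · exact hl' u hu
      · intro p τ hx hy hτ
        have hpu : ⟪p, c • f1 + s • f2⟫ = g / 2 := by rw [hin, hx, hy, hxy]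
        right
        constructor
        · apply forced_of_le
          rw [norm_sq_add', hpu, hnorm, hcs]; linarith
        · apply hF
          · rw [inner_sub_right, hx, inner_add_right, inner_smul_right, inner_smul_right, h11, h12]
            ring
          · rw [inner_sub_right, hy, inner_add_right, inner_smul_right, inner_smul_right, h21, h22]
            ring
          · rw [norm_sq_sub', hpu, hnorm, hcs]; linarith

end Vale.Agent.Lib.P262
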