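import Mathlib
import Vale.Agent.Lib.P262.Forced
import Vale.Agent.Lib.P262.Chain

open scoped RealInnerProductSpace

namespace Vale.Agent.Lib.P262

variable {E : Type*} [NormedAddCommGroup E] [InnerProductSpace ℝ E]

/-- Integer vectors of the three-dimensional lattice. -/
abbrev V3 := ℤ × ℤ × ℤ

/-- Squared Euclidean norm of an integer vector. -/
def sq3 (p : V3) : ℤ := p.1 ^ 2 + p.2.1 ^ 2 + p.2.2 ^ 2

def add3 (p u : V3) : V3 := (p.1 + u.1, p.2.1 + u.2.1, p.2.2 + u.2.2)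

def sub3 (p u : V3) : V3 := (p.1 - u.1, p.2.1 - u.2.1, p.2.2 - u.2.2)

/-- Computable version of `Forced` on integer vectors: starting from `p`, every choice of signs
for the vectors of the list produces a prefix sum of squared norm at least `T`. -/
def forcedZ (T : ℤ) : V3 → List V3 → Bool
  | p, [] => decide (T ≤ sq3 p)
  | p, u :: l => decide (T ≤ sq3 p) || (forcedZ T (add3 p u) l && forcedZ T (sub3 p u) l)

/-- The real vector `(x f1 + y f2 + z f3) / D` attached to an integer vector `(x, y, z)`. -/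
noncomputable def emb (f1 f2 f3 : E) (D : ℝ) (p : V3) : E :=
  ((p.1 : ℝ) / D) • f1 + ((p.2.1 : ℝ) / D) • f2 + ((p.2.2 : ℝ) / D) • f3

lemma emb_add3 (f1 f2 f3 : E) (D : ℝ) (p u : V3) :
    emb f1 f2 f3 D (add3 p u) = emb f1 f2 f3 D p + emb f1 f2 f3 D u := by
  simp only [emb, add3, Int.cast_add, add_div, add_smul]
  abel

lemma emb_sub3 (f1 f2 f3 : E) (D : ℝ) (p u : V3) :
    emb f1 f2 f3 D (sub3 p u) = emb f1 f2 f3 D p - emb f1 f2 f3 D u := by
  simp only [emb, sub3, Int.cast_sub, sub_div, sub_smul]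
  abel

lemma emb_zero (f1 f2 f3 : E) (D : ℝ) : emb f1 f2 f3 D (0, 0, 0) = 0 := by
  simp [emb]

section

variable (f1 f2 f3 : E) (h1 : ‖f1‖ = 1) (h2 : ‖f2‖ = 1) (h3 : ‖f3‖ = 1)
  (h12 : ⟪f1, f2⟫ = 0) (h13 : ⟪f1, f3⟫ = 0) (h23 : ⟪f2, f3⟫ = 0)

include h1 h2 h3 h12 h13 h23

lemma norm_sq_comb (a b c : ℝ) (q : E) (hq1 : ⟪q, f1⟫ = 0) (hq2 : ⟪q, f2⟫ = 0)
    (hq3 : ⟪q, f3⟫ = 0) :
    ‖q + (a • f1 + b • f2 + c • f3)‖ ^ 2 = ‖q‖ ^ 2 + (a ^ 2 + b ^ 2 + c ^ 2) := by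
  have h11 : ⟪f1, f1⟫ = 1 := by rw [real_inner_self_eq_norm_sq, h1]; norm_num
  have h22 : ⟪f2, f2⟫ = 1 := by rw [real_inner_self_eq_norm_sq, h2]; norm_num
  have h33 : ⟪f3, f3⟫ = 1 := by rw [real_inner_self_eq_norm_sq, h3]; norm_num
  have h21 : ⟪f2, f1⟫ = 0 := by rw [real_inner_comm]; exact h12
  have h31 : ⟪f3, f1⟫ = 0 := by rw [real_inner_comm]; exact h13
  have h32 : ⟪f3, f2⟫ = 0 := by rw [real_inner_comm]; exact h23
  have hqw : ⟪q, a • f1 + b • f2 + c • f3⟫ = 0 := by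
    rw [inner_add_right, inner_add_right, inner_smul_right, inner_smul_right, inner_smul_right,
      hq1, hq2, hq3]
    ring
  have hww : ‖a • f1 + b • f2 + c • f3‖ ^ 2 = a ^ 2 + b ^ 2 + c ^ 2 := by
    rw [← real_inner_self_eq_norm_sq]
    simp only [inner_add_left, inner_add_right, inner_smul_left, inner_smul_right,
      h11, h22, h33, h12, h13, h23, h21, h31, h32]
    simp
    ring
  rw [norm_sq_add', hqw, hww]
  ring

lemma norm_sq_emb (D : ℝ) (hD : 0 < D) (p : V3) (q : E) (hq1 : ⟪q, f1⟫ = 0)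
    (hq2 : ⟪q, f2⟫ = 0) (hq3 : ⟪q, f3⟫ = 0) :
    ‖q + emb f1 f2 f3 D p‖ ^ 2 = ‖q‖ ^ 2 + (sq3 p : ℝ) / D ^ 2 := by
  rw [emb, norm_sq_comb f1 f2 f3 h1 h2 h3 h12 h13 h23 _ _ _ q hq1 hq2 hq3]
  simp only [sq3, Int.cast_add, Int.cast_pow]
  field_simp

/-- Soundness of the integer computation: if `forcedZ T p l` holds then, from the starting point
`q + emb p` with `q` orthogonal to the three frame vectors, the embedded list forces squared
norm `‖q‖^2 + T / D^2`. -/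
lemma forcedZ_sound (D : ℝ) (hD : 0 < D) (T : ℤ) (q : E) (hq1 : ⟪q, f1⟫ = 0)
    (hq2 : ⟪q, f2⟫ = 0) (hq3 : ⟪q, f3⟫ = 0) :
    ∀ (l : List V3) (p : V3), forcedZ T p l = true →
      Forced (‖q‖ ^ 2 + (T : ℝ) / D ^ 2) (q + emb f1 f2 f3 D p) (l.map (emb f1 f2 f3 D))
  | [], p => fun h => by
    have hT : T ≤ sq3 p := by simpa [forcedZ] using h
    show ‖q‖ ^ 2 + (T : ℝ) / D ^ 2 ≤ ‖q + emb f1 f2 f3 D p‖ ^ 2
    rw [norm_sq_emb f1 f2 f3 h1 h2 h3 h12 h13 h23 D hD p q hq1 hq2 hq3]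
    have : (T : ℝ) ≤ (sq3 p : ℝ) := by exact_mod_cast hT
    have hD2 : 0 < D ^ 2 := by positivity
    have := div_le_div_of_nonneg_right this hD2.le
    linarith
  | u :: l, p => fun h => by
    simp only [forcedZ, Bool.or_eq_true, Bool.and_eq_true, decide_eq_true_eq] at h
    rcases h with h | ⟨ha, hs⟩
    · left
      rw [norm_sq_emb f1 f2 f3 h1 h2 h3 h12 h13 h23 D hD p q hq1 hq2 hq3]
      have : (T : ℝ) ≤ (sq3 p : ℝ) := by exact_mod_cast h
      have hD2 : 0 < D ^ 2 := by positivity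
      have := div_le_div_of_nonneg_right this hD2.le
      linarith
    · right
      constructor
      · have := forcedZ_sound D hD T q hq1 hq2 hq3 l (add3 p u) ha
        rw [emb_add3, ← add_assoc] at this
        exact this
      · have := forcedZ_sound D hD T q hq1 hq2 hq3 l (sub3 p u) hs
        rw [emb_sub3, ← add_sub_assoc] at this
        exact this

lemma norm_emb_le (D : ℝ) (hD : 0 < D) (N : ℤ) (hN : (N : ℝ) = D ^ 2) (u : V3)
    (hu : sq3 u ≤ N) : ‖emb f1 f2 f3 D u‖ ≤ 1 := by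
  have h := norm_sq_emb f1 f2 f3 h1 h2 h3 h12 h13 h23 D hD u 0 (by simp) (by simp) (by simp)
  simp only [zero_add, norm_zero] at h
  have hD2 : 0 < D ^ 2 := by positivity
  have h1' : (sq3 u : ℝ) ≤ D ^ 2 := by rw [← hN]; exact_mod_cast hu
  have h2' : (sq3 u : ℝ) / D ^ 2 ≤ 1 := by rw [div_le_one hD2]; exact h1'
  have h0 : 0 ≤ ‖emb f1 f2 f3 D u‖ := norm_nonneg _
  nlinarith

end

end Vale.Agent.Lib.P262
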