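import Mathlib
import Vale.Agent.Lib.P262.IntTree

namespace Vale.Agent.Lib.P262

/-- Twenty-eight integer vectors of Euclidean norm at most `10000`. -/
def certList : List V3 :=
  [(1584, -8459, 5092), (-4597, -2241, -8593), (-9672, 1263, 2203), (-9582, 2839, 353),
   (-9144, 771, 3973), (-5885, 2476, -7696), (9842, 13, -1769), (8081, -1069, -5792),
   (7686, 2768, 5767), (-8273, -1744, -5340), (-4859, -944, -8689), (-6456, 1542, -7479),
   (-4741, 3698, 7990), (-7349, -1861, -6521), (-4452, -1078, 8889), (-7047, -5695, -4231),
   (-1729, 1541, -9728), (-2667, -4621, -8457), (-1342, -5743, -8075), (-5838, -1316, -8011),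
   (-5340, 6815, -5004), (6140, -7231, 3163), (-6949, -2335, 6801), (9923, -738, 991),
   (9513, 1949, 2386), (8116, 2095, 5453), (6859, -7249, -634), (3405, 810, 9367)]

lemma certList_norm : ∀ u ∈ certList, sq3 u ≤ 100000000 := by decide

lemma certList_forced : forcedZ 439000000 (0, 0, 0) certList = true := by decide

end Vale.Agent.Lib.P262
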