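import Mathlib
import Vale.Agent.Lib.P262.Chain

open scoped RealInnerProductSpace

namespace Vale.Agent.Lib.P262

variable {E : Type*} [NormedAddCommGroup E] [InnerProductSpace ℝ E]

/-- All signed sums of the first `j` vectors of an orthonormal sequence have squared norm `j`
and are orthogonal to the remaining vectors. -/
lemma allEnds_basis (e : ℕ → E) (M : ℕ) (he1 : ∀ i, i < M → ‖e i‖ = 1)
    (he0 : ∀ i j, i < M → j < M → i ≠ j → ⟪e i, e j⟫ = 0) :
    ∀ j, j ≤ M → AllEnds (fun q : E => ‖q‖ ^ 2 = j ∧ ∀ i, j ≤ i → i < M → ⟪e i, q⟫ = 0) 0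
      ((List.range j).map e) := by
  intro j
  induction j with
  | zero =>
    intro _
    show ‖(0 : E)‖ ^ 2 = ((0 : ℕ) : ℝ) ∧ ∀ i, 0 ≤ i → i < M → ⟪e i, (0 : E)⟫ = 0
    simp
  | succ j ih =>
    intro hj
    have hjM : j < M := hj
    rw [List.range_succ, List.map_append, List.map_singleton]
    apply allEnds_snoc
    refine allEnds_mono ?_ _ _ (ih (Nat.le_of_lt hjM))
    intro q hq
    obtain ⟨hq1, hq2⟩ := hq
    have hqj : ⟪q, e j⟫ = 0 := by rw [real_inner_comm]; exact hq2 j (le_refl _) hjM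
    have hej : ‖e j‖ = 1 := he1 j hjM
    refine ⟨⟨?_, ?_⟩, ⟨?_, ?_⟩⟩
    · rw [norm_sq_add', hq1, hqj, hej]; push_cast; ring
    · intro i hi hiM
      rw [inner_add_right, hq2 i (by omega) hiM, he0 i j hiM hjM (by omega)]; simp
    · rw [norm_sq_sub', hq1, hqj, hej]; push_cast; ring
    · intro i hi hiM
      rw [inner_sub_right, hq2 i (by omega) hiM, he0 i j hiM hjM (by omega)]; simp

/-- Main construction: in a space containing `m + 2` orthonormal vectors, for every `n` there is
a finite list of vectors of norm at most one such that every choice of signs produces a prefix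
sum of squared norm at least `m + 3 - 2^(-n)`. -/
lemma exists_forced (e : ℕ → E) (m : ℕ) (he1 : ∀ i, i < m + 2 → ‖e i‖ = 1)
    (he0 : ∀ i j, i < m + 2 → j < m + 2 → i ≠ j → ⟪e i, e j⟫ = 0) (n : ℕ) :
    ∃ l : List E, (∀ u ∈ l, ‖u‖ ≤ 1) ∧ Forced ((m : ℝ) + 3 - (1 / 2 : ℝ) ^ n) (0 : E) l := by
  have hm : m < m + 2 := by omega
  have hm1 : m + 1 < m + 2 := by omega
  obtain ⟨l, hl, hF⟩ := chain (e m) (e (m + 1)) (he1 m hm) (he1 (m + 1) hm1)
    (he0 m (m + 1) hm hm1 (by omega)) n 1 0 (1 - (1 / 2 : ℝ) ^ n) (by norm_num) (le_refl _)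
  refine ⟨(List.range m).map e ++ (e m :: l), ?_, ?_⟩
  · intro u hu
    rw [List.mem_append, List.mem_cons] at hu
    rcases hu with hu | hu | hu
    · rw [List.mem_map] at hu
      obtain ⟨i, hi, rfl⟩ := hu
      rw [List.mem_range] at hi
      exact (he1 i (by omega)).le
    · rw [hu]; exact (he1 m hm).le
    · exact hl u hu
  · apply forced_append
    refine allEnds_mono ?_ _ _ (allEnds_basis e (m + 2) he1 he0 m (by omega))
    intro q hq
    obtain ⟨hq1, hq2⟩ := hq
    have key : ∀ q : E, ‖q‖ ^ 2 = m → (∀ i, m ≤ i → i < m + 2 → ⟪e i, q⟫ = 0) →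
        Forced ((m : ℝ) + 3 - (1 / 2 : ℝ) ^ n) (q + e m) l := by
      intro q hq1 hq2
      have hem : ‖e m‖ = 1 := he1 m hm
      apply hF
      · rw [inner_add_right, hq2 m (le_refl _) hm, real_inner_self_eq_norm_sq, hem]; norm_num
      · rw [inner_add_right, hq2 (m + 1) (by omega) hm1, he0 (m + 1) m hm1 hm (by omega)]
        norm_num
      · have hqm : ⟪q, e m⟫ = 0 := by rw [real_inner_comm]; exact hq2 m (le_refl _) hm
        rw [norm_sq_add', hq1, hqm, hem]; ring_nf; rfl
    right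
    constructor
    · exact key q hq1 hq2
    · have h := key (-q) (by rw [norm_neg]; exact hq1)
        (fun i hi hiM => by rw [inner_neg_right, hq2 i hi hiM]; simp)
      have h' : q - e m = -(-q + e m) := by abel
      rw [h', forced_neg]
      exact h

end Vale.Agent.Lib.P262
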