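import Mathlib
import Vale.Agent.Lib.P262.Forced

open scoped RealInnerProductSpace

namespace Vale.Agent.Lib.P262

variable {E : Type*} [NormedAddCommGroup E] [InnerProductSpace ℝ E]

/-- From a forced list to the explicit statement about finite sequences and sign choices. -/
lemma exists_of_forced (l : List E) (hl : ∀ u ∈ l, ‖u‖ ≤ 1) (τ : ℝ) (hF : Forced τ (0 : E) l)
    (s : ℝ) (hs : s ^ 2 ≤ τ) :
    ∃ (N : ℕ) (v : Fin N → E), (∀ i, ‖v i‖ ≤ 1) ∧
      ∀ ε : Fin N → ℝ, (∀ i, ε i = 1 ∨ ε i = -1) →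
        ∃ k : ℕ, k ≤ N ∧
          s ≤ ‖∑ i ∈ Finset.univ.filter (fun i : Fin N => (i : ℕ) < k), ε i • v i‖ := by
  refine ⟨l.length, fun i => l.get i, fun i => hl _ (List.get_mem l i), ?_⟩
  intro ε hε
  set ε' : ℕ → ℝ := fun i => if h : i < l.length then ε ⟨i, h⟩ else 1 with hε'
  have hε'1 : ∀ i, ε' i = 1 ∨ ε' i = -1 := by
    intro i
    by_cases h : i < l.length
    · simp only [hε', h, dif_pos]; exact hε _
    · simp [hε', h]
  obtain ⟨k, hk, hk'⟩ := forced_signs l 0 hF ε' hε'1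
  refine ⟨k, hk, ?_⟩
  have hsum : ∑ i ∈ Finset.univ.filter (fun i : Fin l.length => (i : ℕ) < k), ε i • l.get i
      = ∑ i ∈ Finset.range k, ε' i • l.getD i 0 := by
    rw [Finset.sum_filter]
    have h1 := Fin.sum_univ_eq_sum_range
      (fun j => if j < k then ε' j • l.getD j 0 else 0) l.length
    have h2 : ∀ i : Fin l.length, (if (i : ℕ) < k then ε i • l.get i else 0)
        = (fun j => if j < k then ε' j • l.getD j 0 else 0) (i : ℕ) := by
      intro i
      have : ε' (i : ℕ) = ε i := by simp [hε']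
      simp [this]
    rw [Finset.sum_congr rfl (fun i _ => h2 i), h1, ← Finset.sum_filter]
    congr 1
    ext i
    simp only [Finset.mem_filter, Finset.mem_range]
    omega
  rw [hsum]
  rw [zero_add] at hk'
  by_contra hcon
  have hcon := not_le.mp hcon
  have h0 : 0 ≤ ‖∑ i ∈ Finset.range k, ε' i • l.getD i 0‖ := norm_nonneg _
  by_cases hs0 : 0 ≤ s
  · nlinarith
  · linarith

end Vale.Agent.Lib.P262
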